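import Vale.Agent.P050.R3.H987.Embed
import Vale.Agent.P050.Lev.Final

/-!
# P050, cycles with ears: the Sidorenko inequality from the inequality for reversible chains
-/

namespace Vale.Agent.P050.Ears

open Vale.Agent.P050.Lev

/-- The two-sided inequality gives the Sidorenko inequality for all finite graphs `G`. -/
theorem sidorenko_of_ksid {V : Type} [Fintype V] [DecidableEq V] {H : SimpleGraph V}
    {side : V → Bool} (hs : ∀ u v, H.Adj u v → side u ≠ side v)
    (h : KSid (sideEdges H side) side) {U : Type*} [Finite U] [Nonempty U] (G : SimpleGraph U) :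
    edgeDensity G ^ Nat.card H.edgeSet ≤ homDensity H G :=
  sidorenko_of_gsid ⟨hs, h⟩ G

/-- The inequality for reversible chains implies the Sidorenko inequality for all finite
graphs `G`. -/
theorem sidorenko_of_rev {V : Type} [Fintype V] [DecidableEq V] {H : SimpleGraph V}
    {side : V → Bool} (hs : ∀ u v, H.Adj u v → side u ≠ side v) (hiso : ∀ v, ∃ u, H.Adj v u)
    (h : ∀ (S : Type) [Fintype S] [DecidableEq S] [Nonempty S] (A : Matrix S S ℝ) (μ : S → ℝ)
      (c : S → Bool), Rev A μ c → 1 ≤ ∑ z : V → S, wt H side A μ c z)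
    {U : Type*} [Finite U] [Nonempty U] (G : SimpleGraph U) :
    edgeDensity G ^ Nat.card H.edgeSet ≤ homDensity H G :=
  sidorenko_of_gsid (gsid_of_rev H side hs hiso h) G

end Vale.Agent.P050.Ears
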