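import Vale.Agent.P050.R3.H257.Base
import Vale.Agent.P050.R3.H257.Walk
import Vale.Agent.P050.H149.Red

/-!
# P050, cycles with ears: from reversible chains to two-sided kernels; resampling of an arc
-/

namespace Vale.Agent.P050.Ears

open Finset Matrix Vale.Agent.P050.Lev

section Embed

variable {U : Type} [Fintype U]

/-- the states: the points of the two sides with nonzero weight -/
abbrev St (m : Bool → U → ℝ) : Type := {s : Bool × U // m s.1 s.2 ≠ 0}

/-- the chain of the kernel `W` -/
noncomputable def stA (m : Bool → U → ℝ) (W : U → U → ℝ) : Matrix (St m) (St m) ℝ := fun s t =>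
  if s.1.1 = false then (if t.1.1 = true then W s.1.2 t.1.2 * m t.1.1 t.1.2 else 0)
  else (if t.1.1 = false then W t.1.2 s.1.2 * m t.1.1 t.1.2 else 0)

open Classical in
theorem sum_st (m : Bool → U → ℝ) (g : Bool × U → ℝ) (hg : ∀ s, m s.1 s.2 = 0 → g s = 0) :
    ∑ s : St m, g s.1 = ∑ x, g (true, x) + ∑ x, g (false, x) := by
  have h1 : ∑ a ∈ univ.filter (fun s : Bool × U => m s.1 s.2 ≠ 0), g a = ∑ s : St m, g s.1 :=
    Finset.sum_subtype _ (by simp) g
  rw [← h1, Finset.sum_filter]
  have h2 : ∀ s : Bool × U, (if m s.1 s.2 ≠ 0 then g s else 0) = g s := by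
    intro s
    split_ifs with h
    · rfl
    · exact (hg s (not_not.1 h)).symm
  simp only [h2]
  rw [Fintype.sum_prod_type, Fintype.sum_bool]

open Classical in
theorem st_rev (m : Bool → U → ℝ) (W : U → U → ℝ) (hm : ∀ b x, 0 ≤ m b x)
    (hm1 : ∀ b, ∑ x, m b x = 1) (hW : ∀ x y, 0 ≤ W x y)
    (hr : ∀ x, m false x ≠ 0 → ∑ y, m true y * W x y = 1)
    (hc : ∀ y, m true y ≠ 0 → ∑ x, m false x * W x y = 1) :
    Rev (stA m W) (fun s => m s.1.1 s.1.2) (fun s => s.1.1) where
  nonneg := by
    intro u v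
    unfold stA
    split_ifs
    · exact mul_nonneg (hW _ _) (hm _ _)
    · exact le_rfl
    · exact mul_nonneg (hW _ _) (hm _ _)
    · exact le_rfl
  rev := by
    rintro ⟨⟨b, x⟩, hx⟩ ⟨⟨b', y⟩, hy⟩
    cases b <;> cases b' <;> simp [stA] <;> ring
  row := by
    rintro ⟨⟨b, x⟩, hx⟩
    cases b
    · have := sum_st m (fun t => if t.1 = true then W x t.2 * m t.1 t.2 else 0) (by
        intro t ht
        rw [ht, mul_zero, ite_self])
      simp only [stA, if_true]
      rw [this]
      simp only [if_true, Bool.false_eq_true, if_false, Finset.sum_const_zero, add_zero]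
      rw [← hr x hx]
      exact Finset.sum_congr rfl fun y _ => mul_comm _ _
    · have := sum_st m (fun t => if t.1 = false then W t.2 x * m t.1 t.2 else 0) (by
        intro t ht
        rw [ht, mul_zero, ite_self])
      simp only [stA, Bool.true_eq_false, if_false]
      rw [this]
      simp only [if_true, Bool.true_eq_false, if_false, Finset.sum_const_zero, zero_add]
      rw [← hc x hx]
      exact Finset.sum_congr rfl fun y _ => mul_comm _ _
  pos := fun u => lt_of_le_of_ne (hm _ _) (Ne.symm u.2)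
  mass := by
    intro b
    have := sum_st m (fun t => if t.1 = b then m t.1 t.2 else 0) (by
      intro t ht
      rw [ht, ite_self])
    rw [this]
    cases b
    · simp [hm1]
    · simp [hm1]
  alt := by
    rintro ⟨⟨b, x⟩, hx⟩ ⟨⟨b', y⟩, hy⟩ h
    simp only at h
    subst h
    cases b <;> simp [stA]

open Classical in
/-- The inequality for reversible chains implies the inequality for biregular weighted kernels. -/
theorem bireg_of_rev {V : Type} [Fintype V] [DecidableEq V] (H : SimpleGraph V) (side : V → Bool)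
    (h : ∀ (S : Type) [Fintype S] [DecidableEq S] [Nonempty S] (A : Matrix S S ℝ) (μ : S → ℝ)
      (c : S → Bool), Rev A μ c → 1 ≤ ∑ z : V → S, wt H side A μ c z) :
    H149.BiregKSid (sideEdges H side) side := by
  intro U _ m W hm hm1 hW hr hc
  have hrev := st_rev m W hm hm1 hW hr hc
  have hne : Nonempty (St m) := by
    have h1 : ∃ x, m false x ≠ 0 := by
      by_contra hcon
      push Not at hcon
      have := hm1 false
      simp [hcon] at this
    obtain ⟨x, hx⟩ := h1
    exact ⟨⟨(false, x), hx⟩⟩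
  refine (h (St m) _ _ _ hrev).trans ?_
  let G : (V → U) → ℝ := fun z =>
    (∏ v, m (side v) (z v)) * ∏ e ∈ sideEdges H side, W (z e.1) (z e.2)
  let φ : (V → St m) → (V → U) := fun z v => (z v).1.2
  have hG : ∀ z, 0 ≤ G z := fun z =>
    mul_nonneg (Finset.prod_nonneg fun _ _ => hm _ _) (Finset.prod_nonneg fun _ _ => hW _ _)
  have h1 : ∑ z : V → St m, wt H side (stA m W) (fun s => m s.1.1 s.1.2) (fun s => s.1.1) z =
      ∑ z ∈ univ.filter (fun z : V → St m => ∀ v, (z v).1.1 = side v), G (φ z) := by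
    rw [Finset.sum_filter]
    refine Finset.sum_congr rfl fun z _ => ?_
    unfold wt
    split_ifs with hz
    swap
    · rfl
    congr 1
    · refine Finset.prod_congr rfl fun v _ => ?_
      rw [← hz v]
    · refine Finset.prod_congr rfl fun e he => ?_
      have he' := (mem_filter.1 he).2
      have z1 : (z e.1).1.1 = false := (hz e.1).trans he'.2.1
      have z2 : (z e.2).1.1 = true := (hz e.2).trans he'.2.2
      simp only [stA]
      rw [if_pos z1, if_pos z2, mul_div_assoc, div_self (z e.2).2, mul_one]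
  rw [h1]
  have hinj : Set.InjOn φ ↑(univ.filter (fun z : V → St m => ∀ v, (z v).1.1 = side v)) := by
    intro z hz z' hz' hzz
    have a1 := (mem_filter.1 (Finset.mem_coe.1 hz)).2
    have a2 := (mem_filter.1 (Finset.mem_coe.1 hz')).2
    funext v
    apply Subtype.ext
    exact Prod.ext ((a1 v).trans (a2 v).symm) (congrFun hzz v)
  rw [← Finset.sum_image hinj]
  exact Finset.sum_le_sum_of_subset_of_nonneg (Finset.subset_univ _) fun z _ _ => hG z

open Classical in
/-- The inequality for reversible chains implies the two-sided Sidorenko inequality. -/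
theorem gsid_of_rev {V : Type} [Fintype V] [DecidableEq V] (H : SimpleGraph V) (side : V → Bool)
    (hs : ∀ u v, H.Adj u v → side u ≠ side v) (hiso : ∀ v, ∃ u, H.Adj v u)
    (h : ∀ (S : Type) [Fintype S] [DecidableEq S] [Nonempty S] (A : Matrix S S ℝ) (μ : S → ℝ)
      (c : S → Bool), Rev A μ c → 1 ≤ ∑ z : V → S, wt H side A μ c z) : GSid H side := by
  refine ⟨hs, H149.ksid_of_bireg ?_ ?_ (bireg_of_rev H side h)⟩
  · intro e he
    exact (mem_filter.1 he).2.2
  · intro v
    obtain ⟨u, hu⟩ := hiso v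
    have h1 := hs v u hu
    cases hv : side v
    · refine ⟨(v, u), ?_, Or.inl rfl⟩
      simp only [sideEdges, mem_filter, mem_univ, true_and]
      refine ⟨hu, hv, ?_⟩
      cases hu' : side u
      · exact absurd (hv.trans hu'.symm) h1
      · rfl
    · refine ⟨(u, v), ?_, Or.inr rfl⟩
      simp only [sideEdges, mem_filter, mem_univ, true_and]
      refine ⟨hu.symm, ?_, hv⟩
      cases hu' : side u
      · rfl
      · exact absurd (hv.trans hu'.symm) h1

end Embed

section Walks

variable {S : Type*}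

theorem cyc_reflect [Fintype S] {A : Matrix S S ℝ} {μ : S → ℝ} {c : S → Bool} (h : Rev A μ c)
    {k : ℕ} (x : Fin (k + 1) → S) : cyc A (fun i => x (-i)) = cyc A x := by
  unfold cyc
  have e1 : ∏ i, A (x (-i)) (x (-(i + 1))) = ∏ i, A (x (i + 1)) (x i) := by
    rw [← Equiv.prod_comp (Equiv.neg (Fin (k + 1)))]
    rw [← Equiv.prod_comp (Equiv.addRight (1 : Fin (k + 1)))]
    refine Finset.prod_congr rfl fun i _ => ?_
    simp
  rw [e1]
  have e2 : ∀ i, A (x (i + 1)) (x i) = A (x i) (x (i + 1)) * (μ (x i) / μ (x (i + 1))) := by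
    intro i
    have := h.rev (x i) (x (i + 1))
    have hp := (h.pos (x (i + 1))).ne'
    field_simp
    linarith
  simp only [e2]
  rw [Finset.prod_mul_distrib, Finset.prod_div_distrib]
  have e3 : ∏ i, μ (x (i + 1)) = ∏ i, μ (x i) :=
    Equiv.prod_comp (Equiv.addRight (1 : Fin (k + 1))) fun i => μ (x i)
  rw [e3, div_self, mul_one]
  exact (Finset.prod_pos fun i _ => h.pos _).ne'

/-- a closed walk cut at two positions -/
theorem cyc_append (A : Matrix S S ℝ) (m r : ℕ) (X : Fin (m + 1) → S) (Y : Fin (r + 1) → S) :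
    cyc (k := m + 1 + r) A (Fin.append X Y : Fin (m + 1 + (r + 1)) → S) =
      H257.PW A m (X 0) (Fin.tail X) (Y 0) * H257.PW A r (Y 0) (Fin.tail Y) (X 0) := by
  have hX : (Fin.cons (X 0) (Fin.tail X) : Fin (m + 1) → S) = X := Fin.cons_self_tail X
  have hY : (Fin.cons (Y 0) (Fin.tail Y) : Fin (r + 1) → S) = Y := Fin.cons_self_tail Y
  rw [H257.PW_prod, H257.PW_prod, hX, hY]
  unfold cyc
  have e := Fin.prod_univ_add (a := m + 1) (b := r + 1) fun i : Fin (m + 1 + (r + 1)) =>
    A ((Fin.append X Y : Fin (m + 1 + (r + 1)) → S) i)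
      ((Fin.append X Y : Fin (m + 1 + (r + 1)) → S) (i + 1))
  refine e.trans ?_
  rw [Fin.prod_univ_castSucc, Fin.prod_univ_castSucc]
  have a1 : ∀ i : Fin m, Fin.castAdd (r + 1) i.castSucc + 1 = Fin.castAdd (r + 1) i.succ := by
    intro i
    apply Fin.ext
    rw [Fin.val_add_one_of_lt]
    · simp
    · rw [Fin.lt_def]
      simp
      omega
  have a2 : Fin.castAdd (r + 1) (Fin.last m) + 1 = Fin.natAdd (m + 1) (0 : Fin (r + 1)) := by
    apply Fin.ext
    rw [Fin.val_add_one_of_lt]
    · simp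
    · rw [Fin.lt_def]
      simp
      omega
  have a3 : ∀ i : Fin r, Fin.natAdd (m + 1) i.castSucc + 1 = Fin.natAdd (m + 1) i.succ := by
    intro i
    apply Fin.ext
    rw [Fin.val_add_one_of_lt]
    · simp
      omega
    · rw [Fin.lt_def]
      simp
  have a4 : Fin.natAdd (m + 1) (Fin.last r) + 1 = Fin.castAdd (r + 1) (0 : Fin (m + 1)) := by
    have : Fin.natAdd (m + 1) (Fin.last r) = Fin.last (m + 1 + r) := by
      apply Fin.ext
      simp
    rw [this, Fin.last_add_one]
    rfl
  simp only [a1, a2, a3, a4, Fin.append_left, Fin.append_right]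

theorem sum_append [Fintype S] (a b : ℕ) (G : (Fin (a + b) → S) → ℝ) :
    ∑ x, G x = ∑ X : Fin a → S, ∑ Y : Fin b → S, G (Fin.append X Y) := by
  rw [← Equiv.sum_comp (Fin.appendEquiv a b), Fintype.sum_prod_type]
  rfl

/-- the walk `x` with the inner vertices of the arc `0, …, m + 1` replaced by `y` -/
def splice {m r : ℕ} (y : Fin m → S) (x : Fin (m + 1 + r + 1) → S) : Fin (m + 1 + r + 1) → S :=
  fun i => if h : 1 ≤ i.val ∧ i.val ≤ m then y ⟨i.val - 1, by omega⟩ else x i

theorem splice_append {m r : ℕ} (y : Fin m → S) (X : Fin (m + 1) → S) (Y : Fin (r + 1) → S) :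
    splice (r := r) y (Fin.append X Y : Fin (m + 1 + (r + 1)) → S) =
      (Fin.append (Fin.cons (X 0) y : Fin (m + 1) → S) Y : Fin (m + 1 + (r + 1)) → S) := by
  funext i
  unfold splice
  refine Fin.addCases (m := m + 1) (n := r + 1) (fun j => ?_) (fun j => ?_) i
  · rw [Fin.append_left]
    refine Fin.cases ?_ (fun j => ?_) j
    · rw [dif_neg (by simp), Fin.append_left, Fin.cons_zero]
    · have h1 : 1 ≤ (Fin.castAdd (r + 1) j.succ).val ∧ (Fin.castAdd (r + 1) j.succ).val ≤ m := by
        have := j.isLt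
        simp
      rw [dif_pos h1, Fin.append_left, Fin.cons_succ]
      congr 1
  · rw [Fin.append_right, dif_neg (by simp; omega), Fin.append_right]

/-- resampling of the inner vertices of an arc -/
theorem resample' [Fintype S] [DecidableEq S] (A : Matrix S S ℝ) (hA : ∀ u v, 0 ≤ A u v)
    (m r : ℕ) (F : (Fin (m + 1 + r + 1) → S) → ℝ) :
    ∑ x : Fin (m + 1 + r + 1) → S, cyc A x *
      (∑ y : Fin m → S, H257.PW A m (x 0) y (x ⟨m + 1, by omega⟩) /
        (A ^ (m + 1)) (x 0) (x ⟨m + 1, by omega⟩) * F (splice y x)) =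
      ∑ x, cyc A x * F x := by
  have e1 := sum_append (S := S) (m + 1) (r + 1) fun x : Fin (m + 1 + r + 1) → S => cyc A x *
      (∑ y : Fin m → S, H257.PW A m (x 0) y (x ⟨m + 1, by omega⟩) /
        (A ^ (m + 1)) (x 0) (x ⟨m + 1, by omega⟩) * F (splice y x))
  have e2 := sum_append (S := S) (m + 1) (r + 1) fun x : Fin (m + 1 + r + 1) → S => cyc A x * F x
  refine e1.trans (Eq.trans ?_ e2.symm)
  have hPW : ∀ (k : ℕ) (u : S) (y : Fin k → S) (w : S), 0 ≤ H257.PW A k u y w := by
    intro k u y w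
    rw [H257.PW_prod]
    exact mul_nonneg (Finset.prod_nonneg fun _ _ => hA _ _) (hA _ _)
  rw [Finset.sum_comm, Finset.sum_comm (γ := Fin (m + 1) → S)]
  refine Finset.sum_congr rfl fun Y _ => ?_
  rw [H257.sum_cons, H257.sum_cons]
  refine Finset.sum_congr rfl fun u _ => ?_
  have b0 : ∀ z : Fin m → S, (Fin.append (Fin.cons u z : Fin (m + 1) → S) Y :
      Fin (m + 1 + (r + 1)) → S) (0 : Fin (m + 1 + r + 1)) = u := by
    intro z
    have : (0 : Fin (m + 1 + r + 1)) = Fin.castAdd (r + 1) (0 : Fin (m + 1)) := rfl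
    rw [this, Fin.append_left, Fin.cons_zero]
  have b1 : ∀ z : Fin m → S, (Fin.append (Fin.cons u z : Fin (m + 1) → S) Y :
      Fin (m + 1 + (r + 1)) → S) (⟨m + 1, by omega⟩ : Fin (m + 1 + r + 1)) = Y 0 := by
    intro z
    have : (⟨m + 1, by omega⟩ : Fin (m + 1 + r + 1)) = Fin.natAdd (m + 1) (0 : Fin (r + 1)) := by
      apply Fin.ext
      simp
    rw [this, Fin.append_right]
  have b2 : ∀ z : Fin m → S, cyc (k := m + 1 + r) A
      (Fin.append (Fin.cons u z : Fin (m + 1) → S) Y : Fin (m + 1 + (r + 1)) → S) =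
      H257.PW A m u z (Y 0) * H257.PW A r (Y 0) (Fin.tail Y) u := by
    intro z
    rw [cyc_append, Fin.cons_zero, Fin.tail_cons]
  have b3 : ∀ (z y : Fin m → S), splice (r := r) y
      (Fin.append (Fin.cons u z : Fin (m + 1) → S) Y : Fin (m + 1 + (r + 1)) → S) =
      (Fin.append (Fin.cons u y : Fin (m + 1) → S) Y : Fin (m + 1 + (r + 1)) → S) := by
    intro z y
    rw [splice_append, Fin.cons_zero]
  simp only [b0, b1, b2, b3]
  have hs := H257.PW_sum A m u (Y 0)
  rw [← Finset.sum_mul, ← Finset.sum_mul, hs, Finset.mul_sum]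
  refine Finset.sum_congr rfl fun y _ => ?_
  by_cases h0 : (A ^ (m + 1)) u (Y 0) = 0
  · rw [h0] at hs ⊢
    have := (Finset.sum_eq_zero_iff_of_nonneg fun z _ => hPW m u z (Y 0)).1 hs y (mem_univ y)
    rw [this]
    simp
  · field_simp

/-- resampling of the inner vertices of an arc -/
theorem resample [Fintype S] [DecidableEq S] (A : Matrix S S ℝ) (hA : ∀ u v, 0 ≤ A u v)
    (m r : ℕ) (F : (Fin (m + 1 + r + 1) → S) → ℝ) :
    ∑ x : Fin (m + 1 + r + 1) → S, cyc A x *
      (∑ y : Fin m → S, H257.PW A m (x 0) y (x ⟨m + 1, by omega⟩) /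
        (A ^ (m + 1)) (x 0) (x ⟨m + 1, by omega⟩) *
          F (fun i => if h : 1 ≤ i.val ∧ i.val ≤ m then y ⟨i.val - 1, by omega⟩ else x i)) =
      ∑ x, cyc A x * F x := resample' A hA m r F

end Walks

end Vale.Agent.P050.Ears
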